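import Crest.Agent.N233.Rr.Hy
import Crest.Agent.N233.Dv.Act
import Crest.Agent.N233.Wu.Rig_Mg
import Crest.Agent.N233.Dv.Wall
import Crest.Agent.N255.Fa.Q0
import Crest.Agent.N233.Dv.Top
import Mathlib
import Crest.Agent.N233.Dv.Pt
import Crest.Agent.N233.Hi.Hy
import Crest.Agent.N255.Da.Graph

-- ▼ part N233/Ma/Defs
section

/-!
# Row 233 (helper26): the code subgroup, abstract interface
-/

set_option autoImplicit false
open Set

namespace Crest.Agent.N233.Ma

open Crest.Agent.N255.Ra Dv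

variable {S : Type} {Γ : SimpleGraph S} {F : Type} [Group F]

/-- no element inverts a wall -/
def Ni {ρ : F →* (Γ ≃g Γ)} (G : Subgroup (G0 ρ)) : Prop :=
  ∀ g ∈ G, g.right = 1 → ∀ (v : W Γ) (a : S), ∀ u ∈ WT Γ (Γ.neighborSet a),
    g.left ≠ v * (u * gen Γ a) * v⁻¹

/-- the properties of the code subgroup, without rigidity -/
structure Good {ρ : F →* (Γ ≃g Γ)} (G : Subgroup (G0 ρ)) : Prop where
  normal : G.Normal
  fi : G.FiniteIndex
  inr : ∀ f, SemidirectProduct.inr f ∈ G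
  tf : Tf G
  sq : ∀ g : G0 ρ, g * g ∈ G

/-- rigidity: automorphisms that preserve `G` are inner on `G`, the centraliser of `G` is trivial -/
structure Rig {G₀ : Type} [Group G₀] (G : Subgroup G₀) : Prop where
  cen : ∀ u : G₀, (∀ g ∈ G, u * g = g * u) → u = 1
  inn : ∀ b : G₀ ≃* G₀, (∀ g, b g ∈ G ↔ g ∈ G) → ∃ u : G₀, ∀ g ∈ G, b g = u * g * u⁻¹

/-- finiteness of `Out G` for all finite index subgroups that invert no wall -/
def FinA (ρ : F →* (Γ ≃g Γ)) : Prop :=
  ∀ G : Subgroup (G0 ρ), G.FiniteIndex → Ni G → (MulAut.conj (G := G)).range.FiniteIndex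

/-- the output of the code theorem -/
def CodeO (ρ : F →* (Γ ≃g Γ)) : Prop :=
  ∃ G : Subgroup (G0 ρ), Good G ∧ Rig G ∧ (MulAut.conj (G := G)).range.FiniteIndex

end Crest.Agent.N233.Ma
end

-- ▼ part N233/Ma/Gen
section

/-!
# Row 233 (helper26): both statements from a filling, the code subgroup and the non-existence theorem
-/

set_option autoImplicit false
open Set

noncomputable section

namespace Crest.Agent.N233.Ma

open Crest.Agent.N255.Uc Crest.Agent.N255.Ra Dv Wu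

variable {S : Type} {Γ : SimpleGraph S} {F : Type} [Group F] {ρ : F →* (Γ ≃g Γ)}
  {χ : F →* Multiplicative ℤ}

theorem fi_comap {A B : Type*} [Group A] [Group B] (H : Subgroup B) [H.FiniteIndex] (f : A →* B) :
    (H.comap f).FiniteIndex :=
  ⟨by rw [Subgroup.index_comap]; exact (Subgroup.instFiniteIndex_subgroupOf H _).1⟩

/-- the invariant core of `G ∩ W` -/
def Co (G : Subgroup (G0 (rn ρ χ 2))) : Subgroup (W Γ) where
  carrier := {w | ∀ f, SemidirectProduct.inl (aut (ρ f) w) ∈ G}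
  one_mem' := fun f => by simp
  mul_mem' := fun ha hb f => by rw [map_mul, map_mul]; exact G.mul_mem (ha f) (hb f)
  inv_mem' := fun ha f => by rw [map_inv, map_inv]; exact G.inv_mem (ha f)

theorem Co_inv (G : Subgroup (G0 (rn ρ χ 2))) : Inv ρ (Co G) := fun f w hw f' => by
  have := hw (f' * f)
  rwa [← autHom_apply, map_mul] at this

theorem Co_mem {G : Subgroup (G0 (rn ρ χ 2))} {w : W Γ} (h : w ∈ Co G) :
    SemidirectProduct.inl w ∈ G := by
  have := h 1
  rwa [← autHom_apply, map_one] at this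

theorem Co_fi {G : Subgroup (G0 (rn ρ χ 2))} (hG : Good G) {τ : F} (hτ : (χ τ).toAdd = 1) :
    (Co G).FiniteIndex := by
  have := hG.fi
  have h1 := fi_comap G SemidirectProduct.inl
  have h2 := fi_comap G (SemidirectProduct.inl.comp (aut (ρ τ)).toMonoidHom)
  have k : ∀ (f : Gn χ 2) (w : W Γ), SemidirectProduct.inl w ∈ G →
      SemidirectProduct.inl (aut (ρ f) w) ∈ G := fun f w h => by
    have := hG.normal.conj_mem _ h (SemidirectProduct.inr f)
    rwa [← map_inv, ← SemidirectProduct.inl_aut] at this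
  refine Subgroup.finiteIndex_of_le (H := G.comap SemidirectProduct.inl ⊓
    G.comap (SemidirectProduct.inl.comp (aut (ρ τ)).toMonoidHom)) fun w hw f => ?_
  rcases Int.even_or_odd (χ f).toAdd with h | h
  · exact k ⟨f, h.two_dvd⟩ w hw.1
  · have := k ⟨f * τ⁻¹, by
      rw [mem_Gn, map_mul, map_inv, toAdd_mul, toAdd_inv, hτ]
      exact (h.add_odd (by decide)).two_dvd⟩ (aut (ρ τ) w) hw.2
    have e : aut (ρ f) w = autHom ρ (f * τ⁻¹) (autHom ρ τ w) := by
      rw [← MulAut.mul_apply, ← map_mul, inv_mul_cancel_right]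
      rfl
    rw [e]
    exact this

variable (ρ χ) in
/-- the non-existence theorem for all small invariant subgroups -/
def No : Prop := ∃ N0 : Subgroup (W Γ), N0.FiniteIndex ∧ Inv ρ N0 ∧ ∀ N ≤ N0, ∀ [N.FiniteIndex]
  (h : Inv ρ N) (n : ℤ), Odd n → 1 ≤ n → ∀ (T : Type) [TopologicalSpace T] [MulAction (Gs χ h n) T],
    ¬GM 4 (Gs χ h n) T

theorem both_gen [Countable S] [Countable F] {T : Type} [TopologicalSpace T] [MulAction (Gn χ 2) T]
    (Φ : FillG (rn ρ χ 2) T) (c : Cmb (Gn χ 2) T) {τ : F} (hτ : (χ τ).toAdd = 1)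
    (hy : Crest.GroupTheory.IsHyperbolicGroup (G0 (rn ρ χ 2))) (co : CodeO (rn ρ χ 2))
    (no : No ρ χ) : S60 ∧ S61 := by
  obtain ⟨G, hG, hR, fin⟩ := co
  obtain ⟨N0, h0, i0, no⟩ := no
  have := Co_fi hG hτ
  have := hG.normal
  have h : Inv ρ (N0 ⊓ Co G) := fun f w hw => ⟨i0 f w hw.1, Co_inv G f w hw.2⟩
  have le : Gs χ h 2 ≤ G := fun g hg => by
    rw [← g.inl_left_mul_inr_right]
    exact G.mul_mem (Co_mem (mem_Gs.1 hg).2) (hG.inr _)
  exact ⟨s60_con Φ c hτ h (no _ inf_le_left h) G le hG.tf hy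
    (fun g => ⟨1, by simpa [pow_two] using hG.sq g⟩) fin (rig_of G (cn_inj G hR.cen) hR.inn),
    s61_con Φ c hτ h (no _ inf_le_left h) (hG.tf.mono le)⟩

end Crest.Agent.N233.Ma

end
end

-- ▼ part N233/Rr/Bas
section

/-!
# Row 233 (helper16): reflections, centralisers, involutions and walls in a right-angled Coxeter group
-/

set_option autoImplicit false

noncomputable section

namespace Crest.Agent.N233.Rr

open N255.Ra Dv N255.Fa
open scoped Classical

variable {S : Type} {Γ : SimpleGraph S} {u v w g x q q' r : W Γ} {s t : S} {A : Set S}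

/-- reflections -/
def Rx (r : W Γ) : Prop := ∃ u s, r = u * gen Γ s * u⁻¹

/-- the chamber `u` touches the wall `r` -/
def Ad (r u : W Γ) : Prop := ∃ s, r = u * gen Γ s * u⁻¹

variable (Γ) in
/-- the star of a set -/
def star (A : Set S) : Set S := {s | ∀ t ∈ A, s ≠ t → Γ.Adj s t}

variable (Γ) in
/-- the parity of one letter -/
def par (s : S) : W Γ →* ℤˣ :=
  lift (fun x => if x = s then -1 else 1) (fun x => by split_ifs <;> simp) fun _ _ _ => Commute.all _ _

theorem par_gen (s t : S) : par Γ s (gen Γ t) = if t = s then -1 else 1 := lift_gen _ _ _ t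

/-- conjugate generators are equal -/
theorem gen_conj (h : gen Γ t = u * gen Γ s * u⁻¹) : t = s := by
  have := congrArg (par Γ s) h
  rw [map_mul, map_mul, map_inv, mul_inv_cancel_comm, par_gen, par_gen, if_pos rfl] at this
  by_contra e
  rw [if_neg e] at this
  exact absurd this (by decide)

theorem adj_of_In (h : Commute g (gen Γ t)) (hs : s ∈ In g) (e : s ≠ t) : Γ.Adj s t := by
  by_cases ht : t ∈ In g
  · exact In_clique g hs ht e
  have h1 : t ∉ Init g := fun k => by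
    have := len_mem' k
    have := len_nmem ht
    rw [h.eq] at this
    omega
  exact In_clique (g * gen Γ t) (h.eq ▸ In_left h1 hs) (mem_In_mul_self.2 ht) e

/-- **centralisers of generators** -/
theorem cent (h : ∀ t ∈ A, Commute g (gen Γ t)) : g ∈ WT Γ (star Γ A) := by
  induction g using ind_red with
  | one => exact one_mem _
  | mul w s hs ih =>
    have k : s ∈ star Γ A := fun t ht => adj_of_In (h t ht) (mem_In_mul_self.2 hs)
    refine mul_mem (ih fun t ht => ?_) (gen_mem_WT k)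
    simpa using (h t ht).mul_left (gen_comm' (k t ht))

theorem comm_star (h : g ∈ WT Γ (star Γ A)) (ht : t ∈ A) : Commute g (gen Γ t) :=
  (comm_WT (fun s hs e => (hs t ht e.symm).symm) h).symm





theorem N_comm (h : Commute x r) : r ∈ N (x * v) ↔ ¬(r ∈ N x ↔ r ∈ N v) := by
  rw [mem_N_mul, mul_assoc, ← h.eq, inv_mul_cancel_left]

theorem N_conj (h : Commute x r) : g * r * g⁻¹ ∈ N (g * x * g⁻¹) ↔ r ∈ N x := by
  rw [mul_assoc g x, mem_N_mul, show g⁻¹ * (g * r * g⁻¹) * g = r by group, N_comm h, mem_N_inv]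
  tauto

theorem Rx.mem (h : Rx r) : r ∈ N r := by
  obtain ⟨u, s, rfl⟩ := h
  rw [N_conj (Commute.refl _), mem_N_gen]


theorem Rx.sq (h : Rx r) : r * r = 1 := by
  obtain ⟨u, s, rfl⟩ := h
  simp [mul_assoc]

theorem Rx.conj (h : Rx r) (g : W Γ) : Rx (g * r * g⁻¹) := by
  obtain ⟨u, s, rfl⟩ := h
  exact ⟨g * u, s, by group⟩

theorem Rx.flip (h : Rx r) : r ∈ N (r * v) ↔ r ∉ N v := by
  rw [N_comm (Commute.refl r)]; simp [h.mem]


theorem Ad.rf (h : Ad r u) : Rx r := ⟨u, h⟩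

theorem Ad.mul (h : Ad r u) (c : Commute x r) : Ad r (x * u) := h.imp fun s e => by
  rw [show x * u * gen Γ s * (x * u)⁻¹ = x * (u * gen Γ s * u⁻¹) * x⁻¹ by group, ← e, c.eq,
    mul_inv_cancel_right]





variable [DecidableEq S]

/-- **involutions** -/
theorem inv_conj (h : x * x = 1) :
    ∃ (u : W Γ) (σ : Finset S), Γ.IsClique (σ : Set S) ∧ x = u * pr Γ σ * u⁻¹ := by
  induction hn : len x using Nat.strong_induction_on generalizing x with
  | _ n ih =>
  by_cases c : ∃ s, len (gen Γ s * x * gen Γ s) < len x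
  · obtain ⟨s, hs⟩ := c
    obtain ⟨u, σ, hσ, e⟩ := ih _ (hn ▸ hs) (x := gen Γ s * x * gen Γ s)
      (by simp [mul_assoc, ← mul_assoc x x, h]) rfl
    refine ⟨gen Γ s * u, σ, hσ, ?_⟩
    rw [show gen Γ s * u * pr Γ σ * (gen Γ s * u)⁻¹ = gen Γ s * (u * pr Γ σ * u⁻¹) * (gen Γ s)⁻¹ by
      group, ← e]
    simp [mul_assoc]
  have ii : ∀ {y : W Γ}, y * y = 1 → Init y = In y := fun e => by
    rw [Init_eq, inv_eq_of_mul_eq_one_right e]
  have cm : ∀ s ∈ InF x, Commute x (gen Γ s) := fun s hs => by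
    have hs : s ∈ In x := by simpa using hs
    have h1 : s ∉ Init (x * gen Γ s) := fun k => c ⟨s, by
      have := len_mem' k
      have := len_mem hs
      rw [mul_assoc]; omega⟩
    have := cross _ s h1 (by rwa [mul_gen_gen, ii h])
    rw [mul_gen_gen] at this
    rw [Commute, SemiconjBy]
    conv_rhs => rw [this, gen_gen_mul]
  have cl := InF_clique x
  have cp : Commute x (pr Γ (InF x)) :=
    ((Subgroup.closure_le (Subgroup.centralizer {x})).2 (by
      rintro _ ⟨s, hs, rfl⟩ _ rfl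
      exact (cm s hs).eq) (pr_mem_WT subset_rfl) x rfl)
  refine ⟨1, InF x, cl, ?_⟩
  rw [one_mul, inv_one, mul_one, ← pr_inv cl, ← mul_eq_one_iff_eq_inv]
  by_contra e
  obtain ⟨t, ht⟩ := In_nonempty e
  have nm : ∀ s ∈ InF x, s ∉ In (x * pr Γ (InF x)) := fun s hs k => by
    have := (mem_In_mul_pr cl subset_rfl hs).1 k
    exact this.1 (by simpa using hs) hs
  have ad : ∀ s ∈ InF x, Γ.Adj s t := fun s hs =>
    (adj_of_In ((cm s hs).mul_left (comm_pr fun r hr e => cl hs hr e).symm) ht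
      fun e => nm s hs (e ▸ ht)).symm
  exact nm t (by simpa using (mem_In_mul_pr_adj cl ad).1 ht) ht

/-- the centraliser of a product of commuting generators -/
theorem comm_of_pr {σ : Finset S} (hσ : Γ.IsClique (σ : Set S)) (hs : s ∈ σ)
    (h : Commute g (pr Γ σ)) : Commute g (gen Γ s) := by
  have h1 := (N_conj (g := g) (comm_pr fun r hr e => hσ hs hr e).symm).2 ((gen_mem_N_pr hσ).2 hs)
  rw [h.eq, mul_inv_cancel_right] at h1
  obtain ⟨t, -, e⟩ := N_sub_of_WT hσ (pr_mem_WT subset_rfl) h1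
  obtain rfl := gen_conj e
  exact mul_inv_eq_iff_eq_mul.1 e.symm

end Crest.Agent.N233.Rr

end
end

-- ▼ part N233/Rr/One
section

/-!
# Row 233 (helper16): automorphisms map reflections to reflections and preserve `W` in `W ⋊ F`
-/

set_option autoImplicit false

noncomputable section

namespace Crest.Agent.N233.Rr

open N255.Ra Dv

/-- involutions with a minimal double centraliser -/
def Mi {G : Type} [Group G] (x : G) : Prop :=
  x * x = 1 ∧ x ≠ 1 ∧ ∀ y, (∀ g, Commute g x → Commute g y) → y = 1 ∨ y = x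

theorem Mi.map {G G' : Type} [Group G] [Group G'] (β : G ≃* G') {x : G} (h : Mi x) : Mi (β x) := by
  refine ⟨by rw [← map_mul, h.1, map_one], by simpa using h.2.1, fun y hy => ?_⟩
  obtain ⟨y, rfl⟩ := β.surjective y
  rw [β.map_eq_one_iff, β.apply_eq_iff_eq]
  exact h.2.2 y fun g hg => β.injective (by simpa using (hy (β g) (hg.map β)).eq)

variable {S : Type} [DecidableEq S] {Γ : SimpleGraph S} {a b : S} {x : W Γ}

theorem Mi.rf (h : Mi x) : Rx x := by
  obtain ⟨u, σ, hσ, e⟩ := inv_conj h.1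
  have k := h.map (MulAut.conj u⁻¹)
  rw [show MulAut.conj u⁻¹ x = pr Γ σ by rw [e]; simp [mul_assoc]] at k
  obtain ⟨s, hs⟩ := σ.nonempty_iff_ne_empty.2 fun n => k.2.1 (by rw [n, pr_empty])
  exact ⟨u, s, by rw [e, ← (k.2.2 _ fun g => comm_of_pr hσ hs).resolve_left (gen_ne_one s)]⟩

/-- the other apex of a triangle -/
theorem Hy.apex (H : Hy Γ) {σ : Finset S} (hσ : Γ.IsNClique 4 σ) (hb : b ∈ σ) :
    ∃ c, c ≠ b ∧ ¬Γ.Adj c b ∧ ∀ s ∈ σ, s ≠ b → Γ.Adj c s := by
  have h3 : Γ.IsNClique 3 (σ.erase b) := hσ.erase_of_mem hb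
  obtain ⟨p, q, n, k⟩ := H.two _ h3
  obtain ⟨c, cb, hc⟩ : ∃ c, c ≠ b ∧ Γ.IsNClique 4 (insert c (σ.erase b)) := by
    by_cases e : p = b
    exacts [⟨q, e ▸ n.symm, (k q).2 (.inr rfl)⟩, ⟨p, e, (k p).2 (.inl rfl)⟩]
  have ad : ∀ s ∈ σ, s ≠ b → Γ.Adj c s := fun s hs e => by
    have m : s ∈ σ.erase b := Finset.mem_erase.2 ⟨e, hs⟩
    refine hc.1 (by simp) (by simp [e, hs]) fun e' => ?_
    have := hc.2
    rw [Finset.insert_eq_of_mem (e' ▸ m), h3.2] at this
    omega
  refine ⟨c, cb, fun j => ?_, ad⟩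
  have h5 := hσ.insert (a := c) fun s hs => by
    by_cases e : s = b
    exacts [e ▸ j, ad s hs e]
  have := H.le4 _ h5.1
  rw [h5.2] at this
  omega

/-- no transvections -/
theorem Hy.star_star (H : Hy Γ) (a : S) : star Γ (star Γ {a}) ⊆ {a} := fun b hb => by
  by_contra e
  have ab : Γ.Adj b a := hb a (fun _ h n => (n h.symm).elim) e
  obtain ⟨σ, hσ, sub⟩ := H.ext {b, a} (by simpa using fun _ => ab)
  obtain ⟨c, cb, n, k⟩ := H.apex hσ (sub (Finset.mem_insert_self b _))
  exact n (hb c (fun _ h _ => h ▸ k a (sub (by simp)) ab.ne') cb.symm).symm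

theorem Hy.mi_gen (H : Hy Γ) (a : S) : Mi (gen Γ a) := by
  refine ⟨gen_mul_self a, gen_ne_one a, fun y hy => ?_⟩
  have h : y ∈ WT Γ (↑({a} : Finset S) : Set S) := WT_mono (by rw [Finset.coe_singleton]; exact H.star_star a)
    (cent (A := star Γ {a}) fun t ht => (hy _ (comm_star (gen_mem_WT ht) rfl)).symm)
  obtain ⟨σ, hσ, rfl⟩ := (mem_WT (by simp)).1 h
  rcases Finset.subset_singleton_iff.1 hσ with rfl | rfl <;> simp

/-- **step (1)** -/
theorem Hy.rf_map (H : Hy Γ) (β : W Γ ≃* W Γ) (a : S) :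
    ∃ u s, β (gen Γ a) = u * gen Γ s * u⁻¹ := ((H.mi_gen a).map β).rf


omit [DecidableEq S] in
/-- automorphisms of `W ⋊ F` preserve `W` if `F` has no involution -/
theorem res0 {F : Type} [Group F] {ρ : F →* MulAut (W Γ)} (hF : ∀ f : F, f * f = 1 → f = 1)
    (bh : W Γ ⋊[ρ] F ≃* W Γ ⋊[ρ] F) :
    ∃ β : W Γ ≃* W Γ, ∀ w, bh (SemidirectProduct.inl w) = SemidirectProduct.inl (β w) := by
  have key : ∀ (b : W Γ ⋊[ρ] F ≃* W Γ ⋊[ρ] F) w, b (SemidirectProduct.inl w) =
      SemidirectProduct.inl (b (SemidirectProduct.inl w)).left := fun b w => by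
    refine SemidirectProduct.ext rfl ?_
    induction w using ind_right with
    | one => simp
    | mul w s ih =>
      rw [map_mul, map_mul, SemidirectProduct.mul_right, ih, hF (b (.inl (gen Γ s))).right (by
        rw [← SemidirectProduct.mul_right, ← map_mul, ← map_mul, gen_mul_self, map_one, map_one,
          SemidirectProduct.one_right])]
      simp
  refine ⟨{ toFun := fun w => (bh (.inl w)).left, invFun := fun w => (bh.symm (.inl w)).left
            left_inv := fun w => by simp only []; rw [← key]; simp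
            right_inv := fun w => by simp only []; rw [← key]; simp
            map_mul' := fun v w => SemidirectProduct.inl_injective (φ := ρ) (by
              rw [← key, map_mul, map_mul, map_mul, ← key, ← key]) }, key bh⟩

end Crest.Agent.N233.Rr

end
end

-- ▼ part N233/Rr/Fr
section

/-!
# Row 233 (helper16): the hypotheses on the action of `F` on the flag complex
-/

set_option autoImplicit false

namespace Crest.Agent.N233.Rr

/-- a free cocompact action with embedded stars and at least fourteen orbits -/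
structure Fr {S F : Type} [DecidableEq S] [Group F] {Γ : SimpleGraph S} (ρ : F →* (Γ ≃g Γ)) :
    Prop where
  hy : Hy Γ
  b3 : ∀ (a : S) (σ : Set S), Γ.IsClique σ → ∃ c, c ≠ a ∧ ¬Γ.Adj a c ∧ c ∉ σ
  inv : ∀ f : F, f * f = 1 → f = 1
  free : ∀ (f : F) s, ρ f s = s → f = 1
  adj : ∀ (f : F) a, ¬Γ.Adj a (ρ f a)
  loc : ∀ (f : F) a b, Γ.Adj a b → Γ.Adj a (ρ f b) → f = 1
  fin : ∃ B : Set S, B.Finite ∧ ∀ s, ∃ f : F, ρ f s ∈ B
  big : ∃ a : Fin 14 → S, (∀ i j (f : F), ρ f (a i) = a j → i = j) ∧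
    ∀ i j : Fin 14, i < 4 → j < 4 → i ≠ j → Γ.Adj (a i) (a j)

end Crest.Agent.N233.Rr
end

-- ▼ part N233/Rr/Cen
section

/-!
# Row 233 (helper16): subgroups of finite index have trivial centraliser; no inversion
-/

set_option autoImplicit false

noncomputable section

namespace Crest.Agent.N233.Rr

open N255.Ra Dv N255.Fa
open scoped Classical

variable {S F : Type} [Group F] {Γ : SimpleGraph S} {ρ : F →* (Γ ≃g Γ)} {s t : S} {w : W Γ}

theorem up_pow (e : s ≠ t) (n : ¬Γ.Adj s t) (hs : s ∉ In w) (k : ℕ) :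
    len (w * (gen Γ s * gen Γ t) ^ k) = len w + 2 * k ∧ s ∉ In (w * (gen Γ s * gen Γ t) ^ k) ∧
      Init w ⊆ Init (w * (gen Γ s * gen Γ t) ^ k) := by
  induction k with
  | zero => simpa using hs
  | succ k ih =>
    obtain ⟨h1, h2, h3⟩ := ih
    have h4 : t ∉ In (w * (gen Γ s * gen Γ t) ^ k * gen Γ s) := by
      rw [In_mul_of_nmem h2]
      exact fun m => m.elim e.symm fun m => n m.2
    rw [pow_succ, ← mul_assoc, ← mul_assoc, len_nmem h4, len_nmem h2, In_mul_of_nmem h4]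
    exact ⟨by omega, fun m => m.elim e fun m => n m.2.symm,
      fun a ha => Init_up h4 (Init_up h2 (h3 ha))⟩

theorem len_pow (e : s ≠ t) (n : ¬Γ.Adj s t) (k : ℕ) : len ((gen Γ s * gen Γ t) ^ k) = 2 * k := by
  simpa using (up_pow (w := 1) e n (by simp) k).1

theorem cenW (b3 : ∀ (a : S) (σ : Set S), Γ.IsClique σ → ∃ c, c ≠ a ∧ ¬Γ.Adj a c ∧ c ∉ σ)
    (h : ∀ s t, s ≠ t → ¬Γ.Adj s t → ∃ k, Commute w ((gen Γ s * gen Γ t) ^ (k + 1))) : w = 1 := by
  by_contra c
  obtain ⟨a, ha⟩ := In_nonempty (inv_ne_one.2 c)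
  rw [← Init_eq] at ha
  obtain ⟨s, s1, s2, s3⟩ := b3 a _ (In_clique w)
  obtain ⟨t, t1, t2, -⟩ := b3 s ∅ (by simp)
  obtain ⟨k, hk⟩ := h s t t1.symm t2
  obtain ⟨h1, -, h3⟩ := up_pow t1.symm t2 s3 (k + 1)
  refine s2 (Init_clique _ (h3 ha) (by_contra fun m => ?_) s1.symm)
  have h4 := len_nmem' m
  rw [h1, hk.eq, pow_succ', mul_assoc, mul_assoc, gen_gen_mul] at h4
  have := len_mul_le (gen Γ t) ((gen Γ s * gen Γ t) ^ k * w)
  have := len_mul_le ((gen Γ s * gen Γ t) ^ k) w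
  rw [len_pow t1.symm t2] at this
  rw [len_gen] at *
  omega

variable (Γ) in
/-- the retraction onto a special subgroup -/
def ret (A : Set S) : W Γ →* W Γ :=
  lift (fun u => if u ∈ A then gen Γ u else 1) (fun u => by split_ifs <;> simp)
    fun u v h => by split_ifs <;> simp [gen_comm h]

theorem ret_gen (A : Set S) (u : S) : ret Γ A (gen Γ u) = if u ∈ A then gen Γ u else 1 :=
  lift_gen _ _ _ u

theorem letters {s' t' : S} (e : s ≠ t) (n : ¬Γ.Adj s t) {k : ℕ}
    (h : w * (gen Γ s' * gen Γ t') ^ (k + 1) = (gen Γ s * gen Γ t) ^ (k + 1) * w) :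
    s' ∈ ({s, t} : Set S) ∧ t' ∈ ({s, t} : Set S) := by
  by_contra c
  have h1 := congrArg (ret Γ {s, t}) h
  simp only [map_mul, map_pow] at h1
  rw [ret_gen _ s, ret_gen _ t, if_pos (by simp), if_pos (by simp), ← mul_inv_eq_iff_eq_mul] at h1
  have h2 : (ret Γ {s, t} (gen Γ s') * ret Γ {s, t} (gen Γ t')) ^ 2 = 1 := by
    rw [ret_gen, ret_gen]
    split_ifs with a b
    exacts [(c ⟨a, b⟩).elim, by simp [sq], by simp [sq], by simp]
  have h3 := len_pow e n ((k + 1) * 2)
  rw [pow_mul, ← h1, conj_pow, ← pow_mul, mul_comm (k + 1), pow_mul, h2] at h3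
  simp at h3

/-- **trivial centralisers** -/
theorem Fr.cen [DecidableEq S] (R : Fr ρ) (H : Subgroup (G0 ρ)) [H.FiniteIndex] (u : G0 ρ)
    (h : ∀ g ∈ H, u * g = g * u) : u = 1 := by
  have key : ∀ s t, ∃ k, u.left * (gen Γ (ρ u.right s) * gen Γ (ρ u.right t)) ^ (k + 1) =
      (gen Γ s * gen Γ t) ^ (k + 1) * u.left := fun s t => by
    obtain ⟨n, h0, -, m⟩ := H.exists_pow_mem_of_index_ne_zero Subgroup.FiniteIndex.index_ne_zero
      (.inl (gen Γ s * gen Γ t))
    obtain ⟨k, rfl⟩ := Nat.exists_eq_succ_of_ne_zero h0.ne'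
    have := congrArg SemidirectProduct.left (h _ m)
    rw [← map_pow, SemidirectProduct.mul_left, SemidirectProduct.mul_left, SemidirectProduct.left_inl,
      SemidirectProduct.right_inl, map_one, MulAut.one_apply] at this
    exact ⟨k, by simpa [autHom_apply] using this⟩
  obtain ⟨a, -⟩ := R.big
  obtain ⟨t, t1, t2, -⟩ := R.b3 (a 0) ∅ (by simp)
  obtain ⟨k, hk⟩ := key (a 0) t
  have h1 : u.right = 1 := by
    rcases letters t1.symm t2 hk with ⟨e | e, e' | e'⟩
    · exact R.free _ _ e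
    · exact R.free _ _ e
    · exact R.inv _ (R.free _ t (by rw [map_mul]; exact (congrArg _ e').trans e))
    · exact R.free _ _ e'
  refine SemidirectProduct.ext (cenW R.b3 fun s t _ _ => (key s t).imp fun k e => ?_) h1
  simpa [h1, commute_iff_eq] using e

theorem chi_WT (C : Col ρ) {A : Set S} {u : W Γ} (h : u ∈ WT Γ A) {k : C.K} (hk : ∀ s ∈ A, C.κ s ≠ k) :
    (C.χ u).toAdd k = 0 := by
  induction h using Subgroup.closure_induction with
  | mem x hx =>
    obtain ⟨s, hs, rfl⟩ := hx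
    simp [Col.χ, (hk s hs).symm]
  | one => simp
  | mul x y _ _ h1 h2 => simp [h1, h2]
  | inv x _ h => simp [h]

/-- **no inversion** inside the kernel of a colour character -/
theorem ni_col (C : Col ρ) {g : G0 ρ} (hg : g ∈ C.G) (v : W Γ) (a : S) (u : W Γ)
    (hu : u ∈ WT Γ (Γ.neighborSet a)) : g.left ≠ v * (u * gen Γ a) * v⁻¹ := fun e => by
  have h := C.mem_G.1 hg
  rw [e, map_mul, map_mul, map_inv, mul_inv_cancel_comm, map_mul] at h
  have := congrArg (fun x => x.toAdd (C.κ a)) h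
  simp only [toAdd_mul, Pi.add_apply, chi_WT C hu fun s hs => (C.adj _ _ hs).symm] at this
  simp [Col.χ] at this

end Crest.Agent.N233.Rr

end
end

-- ▼ part N233/Rr/Chr
section

/-!
# Row 233 (helper43): finiteness of `Out G` from a characteristic subgroup
-/

set_option autoImplicit false

namespace Crest.Agent.N233.Rr

variable {G : Type} [Group G]

/-- restriction of automorphisms to a characteristic subgroup -/
def resC (K : Subgroup G) [h : K.Characteristic] : MulAut G →* MulAut K :=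
  MonoidHom.mk' (fun β => (β.subgroupMap K).trans
    (MulEquiv.subgroupCongr (Subgroup.characteristic_iff_map_eq.1 h β))) fun _ _ => rfl


theorem fin_of_char (K : Subgroup G) [K.Characteristic]
    (cen : ∀ u : G, (∀ k ∈ K, u * k = k * u) → u = 1)
    (h : (MulAut.conj (G := K)).range.FiniteIndex) : (MulAut.conj (G := G)).range.FiniteIndex := by
  have : ((MulAut.conj (G := K)).range.comap (resC K)).FiniteIndex := ⟨by
    rw [Subgroup.index_comap]
    exact Subgroup.FiniteIndex.index_ne_zero⟩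
  refine Subgroup.finiteIndex_of_le (H := (MulAut.conj (G := K)).range.comap (resC K)) ?_
  rintro β ⟨k, hk⟩
  have e : ∀ x ∈ K, β x = k * x * (k : G)⁻¹ := fun x hx =>
    (congrArg (fun γ : MulAut K => (γ ⟨x, hx⟩ : G)) hk).symm
  refine ⟨k, MulEquiv.ext fun g => ?_⟩
  have := cen (g⁻¹ * (k : G)⁻¹ * β g * k) fun x hx => by
    have h1 := e _ (Subgroup.Normal.conj_mem inferInstance x hx g)
    rw [map_mul, map_mul, map_inv, e x hx] at h1
    calc _ = g⁻¹ * (k : G)⁻¹ * (β g * (k * x * (k : G)⁻¹) * (β g)⁻¹) * β g * k := by group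
      _ = _ := by rw [h1]; group
  rw [MulAut.conj_apply]
  calc _ = (k : G) * g * (g⁻¹ * (k : G)⁻¹ * β g * k) * (k : G)⁻¹ := by rw [this]; group
    _ = _ := by group

theorem fin_congr {G' : Type} [Group G'] (e : G ≃* G')
    (h : (MulAut.conj (G := G')).range.FiniteIndex) : (MulAut.conj (G := G)).range.FiniteIndex := by
  have : ((MulAut.conj (G := G')).range.comap (MulAut.congr e).toMonoidHom).FiniteIndex := ⟨by
    rw [Subgroup.index_comap]
    exact Subgroup.FiniteIndex.index_ne_zero⟩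
  refine Subgroup.finiteIndex_of_le
    (H := (MulAut.conj (G := G')).range.comap (MulAut.congr e).toMonoidHom) ?_
  rintro β ⟨k, hk⟩
  refine ⟨e.symm k, MulEquiv.ext fun g => e.injective ?_⟩
  simpa using congrArg (fun γ : MulAut G' => γ (e g)) hk

variable (G) in
/-- the intersection of the kernels of the characters of order two -/
def sq2 : Subgroup G := ⨅ χ : G →* Multiplicative (ZMod 2), χ.ker

theorem mem_sq2 {g : G} : g ∈ sq2 G ↔ ∀ χ : G →* Multiplicative (ZMod 2), χ g = 1 := by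
  simp [sq2, Subgroup.mem_iInf]

instance : (sq2 G).Characteristic :=
  Subgroup.characteristic_iff_le_comap.2 fun β _ hg => mem_sq2.2 fun χ =>
    mem_sq2.1 hg (χ.comp β.toMonoidHom)

instance [h : Group.FG G] : (sq2 G).FiniteIndex := by
  obtain ⟨B, h1, h2⟩ := Group.fg_iff.1 h
  have : Finite B := h2
  have : Finite (G →* Multiplicative (ZMod 2)) :=
    Finite.of_injective (fun χ (b : B) => χ b) fun χ χ' e =>
      MonoidHom.eq_of_eqOn_dense h1 fun b hb => congrFun e ⟨b, hb⟩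
  exact Subgroup.finiteIndex_iInf fun _ => Subgroup.finiteIndex_ker _

theorem sq2_le {K : Type} (φ : G →* Multiplicative (K → ZMod 2)) : sq2 G ≤ φ.ker := fun _ hg =>
  Multiplicative.toAdd.injective (funext fun k => congrArg Multiplicative.toAdd (mem_sq2.1 hg
    ((AddMonoidHom.toMultiplicative (Pi.evalAddMonoidHom (fun _ => ZMod 2) k)).comp φ)))

/-- the characteristic subgroup, inside the ambient group -/
def sq2' (H : Subgroup G) : Subgroup G := (sq2 H).map H.subtype


theorem sq2'_le_ker (H : Subgroup G) {K : Type} (φ : G →* Multiplicative (K → ZMod 2)) :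
    sq2' H ≤ φ.ker := by
  rintro _ ⟨g, hg, rfl⟩
  exact sq2_le (φ.comp H.subtype) hg

instance (H : Subgroup G) [H.FiniteIndex] [Group.FG G] : (sq2' H).FiniteIndex := ⟨by
  rw [sq2', Subgroup.index_map_subtype]
  exact mul_ne_zero Subgroup.FiniteIndex.index_ne_zero Subgroup.FiniteIndex.index_ne_zero⟩

/-- the transfer -/
theorem fin_sub (H : Subgroup G) (cen : ∀ u ∈ H, (∀ k ∈ sq2' H, u * k = k * u) → u = 1)
    (h : (MulAut.conj (G := sq2' H)).range.FiniteIndex) :
    (MulAut.conj (G := H)).range.FiniteIndex :=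
  fin_of_char (sq2 H) (fun u hu => Subtype.ext (cen u u.2 (by
    rintro _ ⟨k, hk, rfl⟩
    exact congrArg Subtype.val (hu k hk))))
    (fin_congr ((sq2 H).equivMapOfInjective H.subtype H.subtype_injective) h)

end Crest.Agent.N233.Rr
end

-- ▼ part N233/Rr/Geo
section

/-!
# Row 233 (helper43): an automorphism that preserves reflections is geometric
-/

set_option autoImplicit false
open Set Relation

noncomputable section

namespace Crest.Agent.N233.Rr.G

open Crest.Agent.N255.Ra Dv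

variable {S : Type} {Γ : SimpleGraph S} {u v w g r t : W Γ} {s : S}

/-- the vertex `v` is adjacent to the wall of `r` -/
def Aj (v r : W Γ) : Prop := ∃ s, r = v * gen Γ s * v⁻¹

/-- reflections -/
def Rl (r : W Γ) : Prop := ∃ v, Aj v r

theorem Aj.conj (h : Aj v r) (u : W Γ) : Aj (u * v) (u * r * u⁻¹) :=
  h.imp fun s e => by rw [e]; group

theorem Rl.conj (h : Rl r) (u : W Γ) : Rl (u * r * u⁻¹) := h.elim fun _ h => ⟨_, h.conj u⟩

theorem Rl.mul_self (h : Rl r) : r * r = 1 := by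
  obtain ⟨v, s, rfl⟩ := h; simp [mul_assoc]

theorem Rl.inv (h : Rl r) : r⁻¹ = r := inv_eq_of_mul_eq_one_right h.mul_self

theorem Rl.mem_N (h : Rl t) (c : Commute r t) : r ∈ N t ↔ r = t := by
  obtain ⟨v, s, rfl⟩ := h
  rw [mem_N_mul, mem_N_mul_gen, mem_N_inv]
  have : v * ((v * gen Γ s)⁻¹ * r * (v * gen Γ s)) * v⁻¹ = r := by
    calc _ = (v * gen Γ s * v⁻¹) * (r * (v * gen Γ s * v⁻¹)) := by simp [mul_assoc]
      _ = r := by rw [c.eq]; simp [mul_assoc]
  rw [this]; tauto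

theorem mem_N_conj : u * r * u⁻¹ ∈ N (u * g) ↔ ¬(u * r * u⁻¹ ∈ N u ↔ r ∈ N g) := by
  rw [mem_N_mul]; simp [mul_assoc]

theorem comm_of_mem_N (c : Commute w (gen Γ s)) (h : t ∈ N w) : Commute t (gen Γ s) := by
  induction hn : len w generalizing w t with
  | zero => rw [len_eq_zero.1 hn] at h; simp at h
  | succ n ih =>
    obtain ⟨a, ha⟩ := In_nonempty (w := w⁻¹) fun e => by
      rw [inv_eq_one.1 e, len_one] at hn; omega
    rw [← Init_eq] at ha
    have c1 : Commute (gen Γ a) (gen Γ s) := gen_comm' fun n => by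
      by_cases hs : s ∈ Init w
      · exact Init_clique w ha hs n
      · refine Init_clique (gen Γ s * w) (gen_mem_N.1 ?_) ?_ n
        · rw [← c.eq, mem_N_mul_gen, gen_mem_N, c.eq, mul_inv_cancel_right, gen_injective.eq_iff]
          tauto
        · have := len_nmem' hs
          change len _ < len _
          rw [gen_gen_mul]; omega
    by_cases e : t = gen Γ a
    · exact e ▸ c1
    have h1 : gen Γ a * t * gen Γ a ∈ N (gen Γ a * w) := by
      rw [mem_N_mul, mem_N_gen, conj_eq (Commute.refl _)]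
      simpa [mul_assoc, e] using h
    have h2 := ih (c1.mul_left c) h1 (by have := len_mem' ha; omega)
    simpa [mul_assoc] using (c1.mul_left h2).mul_left c1

/-- a wall lies on one side of every wall that it does not cross -/
theorem Aj.side (h : Aj v r) (h' : Aj w r) (c : ¬Commute t r) : t ∈ N v ↔ t ∈ N w := by
  obtain ⟨s, e⟩ := h
  obtain ⟨s', e'⟩ := h'
  obtain rfl : s = s' := eq_of_conj (u := v⁻¹ * w) (by
    rw [conj_iff, ← conj_iff.2 e, e']; group)
  by_contra n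
  have h1 : v⁻¹ * t * v ∈ N (v⁻¹ * w) := by
    have := @mem_N_mul S Γ v (v⁻¹ * w) t
    rw [mul_inv_cancel_left] at this
    tauto
  have c1 : Commute (v⁻¹ * w) (gen Γ s) := by
    have : w * gen Γ s * w⁻¹ = v * gen Γ s * v⁻¹ := e'.symm.trans e
    calc v⁻¹ * w * gen Γ s = v⁻¹ * (w * gen Γ s * w⁻¹) * w := by group
      _ = _ := by rw [this]; group
  have := (comm_of_mem_N c1 h1).map (MulAut.conj v)
  simp only [MulAut.conj_apply, ← e] at this
  exact c (by simpa [mul_assoc] using this)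

theorem exists_aj (h : r ∈ N g) : ∃ v, Aj v r ∧ N v ⊆ N g := by
  induction g using ind_red with
  | one => simp at h
  | mul w s hs ih =>
    have a : N w ⊆ N (w * gen Γ s) := fun t ht => by
      rw [mem_N_mul_gen]
      intro e
      exact hs (last_mem_N.1 (e.1 ht ▸ ht))
    by_cases e : r = w * gen Γ s * w⁻¹
    · exact ⟨w, ⟨s, e⟩, a⟩
    · rw [mem_N_mul_gen] at h
      obtain ⟨v, h1, h2⟩ := ih (by tauto)
      exact ⟨v, h1, h2.trans a⟩

theorem Rl.step (h : Rl t) : ∃ x, gen Γ x ∈ N t ∧ (t = gen Γ x ∨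
    len (gen Γ x * t * gen Γ x) < len t ∧ gen Γ x ∉ N (gen Γ x * t * gen Γ x)) := by
  obtain ⟨x, hx⟩ := In_nonempty (w := t⁻¹) fun e => by
    have := (h.mem_N (Commute.refl t)).2 rfl
    rw [inv_eq_one.1 e] at this; simp at this
  rw [← Init_eq] at hx
  refine ⟨x, gen_mem_N.2 hx, or_iff_not_imp_left.2 fun e => ?_⟩
  have h1 := len_mem' hx
  have h2 : x ∈ In (gen Γ x * t) := by
    rw [← last_mem_N, mem_N_mul, mem_N_gen]
    have a : t * gen Γ x * t⁻¹ ∈ N t := by rw [← mem_N_inv, h.inv]; exact gen_mem_N.2 hx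
    have b : gen Γ x * t * gen Γ x * (gen Γ x * t)⁻¹ ≠ gen Γ x := fun b =>
      e ((h.mem_N (r := gen Γ x) (by
        rw [mul_inv_eq_iff_eq_mul, gen_gen_mul] at b
        calc gen Γ x * t = gen Γ x * t * gen Γ x * gen Γ x := by simp
          _ = _ := by rw [b])).1 (gen_mem_N.2 hx)).symm
    simp only [b, false_iff, not_not]
    simpa [mul_assoc] using a
  have h3 := len_mem h2
  refine ⟨by omega, fun a => ?_⟩
  have h4 := len_mem' (gen_mem_N.1 a)
  have h5 : x ∈ In t := by rw [In_eq, h.inv]; exact hx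
  have h6 := len_mem h5
  rw [mul_assoc, gen_gen_mul, ← mul_assoc] at h4
  omega

theorem Rl.exists_aj (h : Rl t) {B : Set S} (c : ∀ b ∈ B, Commute t (gen Γ b)) :
    ∃ u, Aj u t ∧ ∀ b ∈ B, Commute u (gen Γ b) := by
  induction hn : len t using Nat.strong_induction_on generalizing t with
  | _ n ih =>
  obtain ⟨x, h1, rfl | ⟨h2, -⟩⟩ := h.step
  · exact ⟨1, ⟨x, by simp⟩, fun _ _ => Commute.one_left _⟩
  · have cx := fun b hb => comm_of_mem_N (c b hb) h1
    obtain ⟨u, h3, h4⟩ := ih _ (hn ▸ h2) (by simpa using h.conj (gen Γ x))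
      (fun b hb => ((cx b hb).mul_left (c b hb)).mul_left (cx b hb)) rfl
    exact ⟨gen Γ x * u, by simpa [mul_assoc] using h3.conj (gen Γ x),
      fun b hb => (cx b hb).mul_left (h4 b hb)⟩

/-- commuting reflections have a common vertex -/
theorem exists_common {ι : Type} (r : ι → W Γ) (hr : ∀ a, Rl (r a)) (σ : Finset ι)
    (c : ∀ a ∈ σ, ∀ b ∈ σ, Commute (r a) (r b)) : ∃ v, ∀ a ∈ σ, Aj v (r a) := by
  classical
  induction σ using Finset.induction_on with
  | empty => exact ⟨1, by simp⟩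
  | insert a σ _ ih =>
    obtain ⟨v, hv⟩ := ih fun a ha b hb => c a (by simp [ha]) b (by simp [hb])
    obtain ⟨u, h1, h2⟩ := ((hr a).conj v⁻¹).exists_aj
      (B := {s | ∃ b ∈ σ, r b = v * gen Γ s * v⁻¹}) (by
        rintro s ⟨b, hb, e⟩
        have := (c a (by simp) b (by simp [hb])).map (MulAut.conj v⁻¹)
        simpa [e, mul_assoc] using this)
    refine ⟨v * u, fun b hb => ?_⟩
    rcases Finset.mem_insert.1 hb with rfl | hb
    · simpa [mul_assoc] using h1.conj v
    · obtain ⟨s, e⟩ := hv b hb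
      exact ⟨s, by rw [mul_assoc v, (h2 s ⟨b, hb, e⟩).eq, e]; group⟩

/-- with prescribed sides -/
theorem exists_common' {ι : Type} (r : ι → W Γ) (hr : ∀ a, Rl (r a)) (hi : Function.Injective r)
    (ε : ι → Prop) (σ : Finset ι) (c : ∀ a ∈ σ, ∀ b ∈ σ, Commute (r a) (r b)) :
    ∃ v, ∀ a ∈ σ, Aj v (r a) ∧ (r a ∈ N v ↔ ε a) := by
  classical
  suffices h : ∀ τ ⊆ σ, ∃ v, (∀ a ∈ σ, Aj v (r a)) ∧ ∀ a ∈ τ, (r a ∈ N v ↔ ε a) from
    (h σ subset_rfl).imp fun v h a ha => ⟨h.1 a ha, h.2 a ha⟩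
  intro τ
  induction τ using Finset.induction_on with
  | empty => exact fun _ => (exists_common r hr σ c).imp fun v h => ⟨h, by simp⟩
  | insert a τ ha ih =>
    intro h
    obtain ⟨v, h1, h2⟩ := ih ((Finset.subset_insert _ _).trans h)
    have ha' : a ∈ σ := h (by simp)
    by_cases e : r a ∈ N v ↔ ε a
    · exact ⟨v, h1, fun b hb => (Finset.mem_insert.1 hb).elim (fun h => h ▸ e) (h2 b)⟩
    have k : ∀ b ∈ σ, r a * r b * (r a)⁻¹ = r b := fun b hb => by
      rw [(c a ha' b hb).eq, mul_inv_cancel_right]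
    have m : ∀ b ∈ σ, (r b ∈ N (r a * v) ↔ ¬(b = a ↔ r b ∈ N v)) := fun b hb => by
      have := @mem_N_conj S Γ (r a) v (r b)
      rwa [k b hb, (hr a).mem_N (c b hb a ha'), hi.eq_iff] at this
    refine ⟨r a * v, fun b hb => k b hb ▸ (h1 b hb).conj (r a), fun b hb => ?_⟩
    rw [m b (h hb)]
    rcases Finset.mem_insert.1 hb with rfl | hb
    · tauto
    · have := h2 b hb
      have : b ≠ a := fun e => ha (e ▸ hb)
      tauto

theorem p1 {A B C : Prop} (h : A ↔ ¬(B ↔ C)) : C ↔ ¬(A ↔ B) := by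
  by_cases B <;> by_cases C <;> simp_all

theorem p3 {A B C D E : Prop} (h1 : A ↔ B) (h2 : ¬(C ↔ A)) (h3 : D ↔ ¬A) (h4 : E → ¬(C ↔ D))
    (h5 : ¬(D ↔ E) ↔ B) : False := by
  by_cases A <;> by_cases C <;> by_cases E <;> simp_all

/-- two walls facing each other have disjoint far sides -/
theorem far_disj {x y : W Γ} (hv : Aj v x) (hw : Aj w y) (c : ¬Commute x y)
    (h1 : x ∈ N v ↔ x ∈ N w) (h2 : ¬(x ∈ N g ↔ x ∈ N v)) : y ∈ N g ↔ y ∈ N (x * v) := by
  by_contra h3
  have hx : Rl x := ⟨v, hv⟩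
  have a : ∀ r, ((x * v)⁻¹ * r * (x * v) ∈ N ((x * v)⁻¹ * g) ↔ ¬(r ∈ N g ↔ r ∈ N (x * v))) := fun r => by
    have := @mem_N_mul S Γ (x * v) ((x * v)⁻¹ * g) r
    rw [mul_inv_cancel_left] at this
    exact p1 this
  obtain ⟨k, k1, k2⟩ := exists_aj ((a y).2 h3)
  have k3 : Aj (x * v * k) y := by simpa [mul_assoc] using k1.conj (x * v)
  have k4 := k3.side hw c
  have b : x ∈ N (x * v) ↔ x ∉ N v := by
    have := @mem_N_conj S Γ x v x
    rw [mul_inv_cancel_right, hx.mem_N (Commute.refl x)] at this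
    simpa using this
  rw [mem_N_mul] at k4
  exact p3 h1 h2 b (fun e => (a x).1 (k2 e)) k4

theorem Aj.mem_N_mul (hv : Aj v t) (h : r ≠ t) : r ∈ N (t * v) ↔ r ∈ N v := by
  obtain ⟨s, rfl⟩ := hv
  rw [inv_mul_cancel_right, mem_N_mul_gen]; tauto

/-- all points on the side of `v` of the wall `x` lie on one side of the wall `r` -/
def Bh (v x r : W Γ) : Prop :=
  ∀ g g', (x ∈ N g ↔ x ∈ N v) → (x ∈ N g' ↔ x ∈ N v) → (r ∈ N g ↔ r ∈ N g')

theorem Bh.flip {x y : W Γ} (hx : Rl x) (d : ∀ g, ¬(x ∈ N g ↔ x ∈ N v) → (y ∈ N g ↔ y ∈ N v))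
    (h : Bh v y r) : Bh v x (x * r * x⁻¹) := fun g g' h1 h2 => by
  have b : ∀ g, x ∈ N (x * g) ↔ x ∉ N g := fun g => by
    have := @mem_N_conj S Γ x g x
    rw [mul_inv_cancel_right, hx.mem_N (Commute.refl x)] at this
    tauto
  have := h (x * g) (x * g') (d _ (by rw [b]; tauto)) (d _ (by rw [b]; tauto))
  have e : ∀ g, g = x * (x * g) := fun g => by rw [← mul_assoc, hx.mul_self, one_mul]
  rw [e g, e g', mem_N_conj, mem_N_conj]
  tauto

variable [DecidableEq S] (H : Hy Γ) (β : W Γ ≃* W Γ)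

theorem apex {ρ : Finset S} (hρ : Γ.IsNClique 3 ρ) {x : S} (ht : Rl t) (hx : gen Γ x ∈ N t)
    (c : ∀ b ∈ ρ, Commute t (gen Γ b) ∧ t ≠ gen Γ b) : Γ.IsNClique 4 (insert x ρ) :=
  hρ.insert fun b hb => adj_of_comm (by
    rintro rfl
    exact (c x hb).2 ((ht.mem_N (c x hb).1.symm).1 hx).symm) (comm_of_mem_N (c b hb).1 hx)

theorem pingpong {ρ : Finset S} (hρ : Γ.IsNClique 3 ρ) {a a' : S}
    (h2 : ∀ s, Γ.IsNClique 4 (insert s ρ) → s = a ∨ s = a') (ra : Rl (β (gen Γ a)))
    (ra' : Rl (β (gen Γ a')))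
    (d : ∀ g, ¬(β (gen Γ a) ∈ N g ↔ β (gen Γ a) ∈ N v) → (β (gen Γ a') ∈ N g ↔ β (gen Γ a') ∈ N v))
    (ht : Rl t) (c : ∀ b ∈ ρ, Commute t (gen Γ b) ∧ t ≠ gen Γ b) :
    (gen Γ a ∈ N t ∧ Bh v (β (gen Γ a)) (β t)) ∨ (gen Γ a' ∈ N t ∧ Bh v (β (gen Γ a')) (β t)) := by
  induction hn : len t using Nat.strong_induction_on generalizing t with
  | _ n ih =>
  obtain ⟨x, h1, h3⟩ := ht.step
  have hx := h2 x (apex hρ ht h1 c)
  rcases h3 with rfl | ⟨h3, h4⟩
  · rcases hx with rfl | rfl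
    · exact Or.inl ⟨h1, fun g g' a b => a.trans b.symm⟩
    · exact Or.inr ⟨h1, fun g g' a b => a.trans b.symm⟩
  have cx := fun b hb => comm_of_mem_N (c b hb).1 h1
  have k := ih _ (hn ▸ h3) (by simpa using ht.conj (gen Γ x)) (fun b hb =>
    ⟨((cx b hb).mul_left (c b hb).1).mul_left (cx b hb), fun e => (c b hb).2 ((conj_eq (cx b hb) t).1 e)⟩)
    rfl
  have e : β t = β (gen Γ x) * β (gen Γ x * t * gen Γ x) * (β (gen Γ x))⁻¹ := by
    rw [← map_inv, ← map_mul, ← map_mul]; simp [mul_assoc]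
  rcases hx with rfl | rfl
  · exact Or.inl ⟨h1, e ▸ Bh.flip ra d (k.resolve_left fun k => h4 k.1).2⟩
  · refine Or.inr ⟨h1, e ▸ Bh.flip ra' (fun g hg => ?_) (k.resolve_right fun k => h4 k.1).2⟩
    by_contra n
    exact hg (d g n)

/-- the side of the wall of `a` that carries the walls outside the star of `a` -/
def sd (a : S) : Prop := ∃ c v, Out Γ a c ∧ Aj v (β (gen Γ c)) ∧ β (gen Γ a) ∈ N v

omit [DecidableEq S] in
theorem ncomm {a c : S} (h : Out Γ a c) : ¬Commute (β (gen Γ a)) (β (gen Γ c)) := fun e =>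
  h.2 (adj_of_comm h.1.symm (by simpa using e.map β.symm))

variable {β} (hr : ∀ a, Rl (β (gen Γ a)))
include H hr

theorem sd_iff {a c : S} (h : Out Γ a c) (hv : Aj v (β (gen Γ c))) : β (gen Γ a) ∈ N v ↔ sd β a := by
  refine ⟨fun m => ⟨c, v, h, hv, m⟩, fun ⟨c', w, h', hw, m⟩ => ?_⟩
  suffices k : ∀ c, ReflTransGen (fun x y => Γ.Adj x y ∧ Out Γ a x ∧ Out Γ a y) c' c →
      ∀ v, Aj v (β (gen Γ c)) → β (gen Γ a) ∈ N v from k c (H.conn a c' c h' h) v hv
  intro c p
  induction p with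
  | refl => exact fun v hv => (hv.side hw (ncomm β h')).2 m
  | @tail x y _ e ih =>
    intro v hv
    obtain ⟨u, hu⟩ := exists_common (fun a => β (gen Γ a)) hr {x, y} (by
      have := (gen_comm e.1).map β
      simp only [Finset.mem_insert, Finset.mem_singleton]
      rintro _ (rfl | rfl) _ (rfl | rfl)
      exacts [Commute.refl _, this, this.symm, Commute.refl _])
    exact (hv.side (hu y (by simp)) (ncomm β e.2.2)).2 (ih u (hu x (by simp)))

theorem good_eq (hr' : ∀ a, Rl (β.symm (gen Γ a))) {σ σ' : Finset S} (hσ : Γ.IsNClique 4 σ)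
    (hσ' : Γ.IsNClique 4 σ') (h3 : (σ ∩ σ').card = 3)
    (hv : ∀ a ∈ σ, Aj v (β (gen Γ a)) ∧ (β (gen Γ a) ∈ N v ↔ sd β a))
    (hw : ∀ a ∈ σ', Aj w (β (gen Γ a)) ∧ (β (gen Γ a) ∈ N w ↔ sd β a)) : v = w := by
  have hρ : Γ.IsNClique 3 (σ ∩ σ') := ⟨hσ.1.subset (by simp), h3⟩
  obtain ⟨a, ha, ea⟩ := Finset.exists_eq_insert_iff.2
    ⟨Finset.inter_subset_left (s₂ := σ'), by rw [h3, hσ.2]⟩
  obtain ⟨a', ha', ea'⟩ := Finset.exists_eq_insert_iff.2
    ⟨Finset.inter_subset_right (s₁ := σ), by rw [h3, hσ'.2]⟩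
  have m : a ∈ σ := ea ▸ Finset.mem_insert_self _ _
  have m' : a' ∈ σ' := ea' ▸ Finset.mem_insert_self _ _
  have n : a ∉ σ' := fun h => ha (Finset.mem_inter.2 ⟨m, h⟩)
  have ne : a' ≠ a := fun e => n (e ▸ m')
  have o : Out Γ a a' := ⟨ne, fun e => by
    have : Γ.IsNClique 5 (insert a σ') := hσ'.insert fun b hb => by
      rw [← ea'] at hb
      rcases Finset.mem_insert.1 hb with rfl | hb
      · exact e
      · exact hσ.1 m (Finset.mem_inter.1 hb).1 fun e => ha (e ▸ hb)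
    have := this.2 ▸ H.le4 _ this.1
    omega⟩
  have o' : Out Γ a' a := ⟨ne.symm, fun e => o.2 e.symm⟩
  obtain ⟨b, b', -, hb⟩ := H.two _ hρ
  have h2 : ∀ s, Γ.IsNClique 4 (insert s (σ ∩ σ')) → s = a ∨ s = a' := fun s hs => by
    have e1 := (hb a).1 (ea.symm ▸ hσ)
    have e2 := (hb a').1 (ea'.symm ▸ hσ')
    rcases (hb s).1 hs with rfl | rfl <;> rcases e1 with rfl | rfl <;> rcases e2 with rfl | rfl <;>
      simp_all
  have s1 : β (gen Γ a) ∈ N v ↔ β (gen Γ a) ∈ N w := (hv a m).2.trans (sd_iff H hr o (hw a' m').1).symm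
  have s2 : β (gen Γ a') ∈ N w ↔ β (gen Γ a') ∈ N v :=
    (hw a' m').2.trans (sd_iff H hr o' (hv a m).1).symm
  suffices k : v⁻¹ * w ∈ WT Γ ∅ by simpa [WT, inv_mul_eq_one] using k
  refine mem_WT_of_N fun t0 h0 => False.elim ?_
  obtain ⟨k, k1, -⟩ := exists_aj h0
  have sep : ¬(v * t0 * v⁻¹ ∈ N w ↔ v * t0 * v⁻¹ ∈ N v) := by
    have := @mem_N_conj S Γ v (v⁻¹ * w) t0
    rw [mul_inv_cancel_left] at this
    tauto
  obtain ⟨s, es⟩ := k1.conj v
  have rt : Rl (β.symm (v * t0 * v⁻¹)) := by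
    rw [es, map_mul, map_mul, map_inv]; exact (hr' s).conj _
  have := pingpong β hρ h2 (hr a) (hr a') (v := v) (fun g hg =>
    (far_disj (hv a m).1 (hw a' m').1 (ncomm β o) s1 hg).trans ((hv a m).1.mem_N_mul fun e =>
      ne (gen_injective (β.injective e)))) rt fun b hb => by
    obtain ⟨b1, b2⟩ := Finset.mem_inter.1 hb
    refine ⟨?_, fun e => sep ?_⟩
    · have : Commute (v * t0 * v⁻¹) (β (gen Γ b)) := by
        by_contra n
        exact sep ((hw b b2).1.side (hv b b1).1 n)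
      simpa using this.map β.symm
    · rw [β.symm_apply_eq.1 e, (hw b b2).2, (hv b b1).2]
  rw [β.apply_symm_apply] at this
  rcases this with k | k
  · exact sep (k.2 w v s1.symm Iff.rfl)
  · exact sep (k.2 w v s2 Iff.rfl)

theorem exists_aj_all [Nonempty S] (hr' : ∀ a, Rl (β.symm (gen Γ a))) :
    ∃ v, ∀ a, Aj v (β (gen Γ a)) := by
  have ex : ∀ σ, Γ.IsNClique 4 σ →
      ∃ v, ∀ a ∈ σ, Aj v (β (gen Γ a)) ∧ (β (gen Γ a) ∈ N v ↔ sd β a) := fun σ hσ =>
    exists_common' _ hr (β.injective.comp gen_injective) _ σ fun a ha b hb =>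
      (gen_comm' fun n => hσ.1 ha hb n).map β
  obtain ⟨σ0, h0, -⟩ := H.ext ∅ (by simp)
  obtain ⟨v, hv⟩ := ex σ0 h0
  refine ⟨v, fun a => ?_⟩
  obtain ⟨σ, h1, h2⟩ := H.ext {a} (by simp)
  suffices k : ∀ b ∈ σ, Aj v (β (gen Γ b)) ∧ (β (gen Γ b) ∈ N v ↔ sd β b) from
    (k a (h2 (by simp))).1
  have p := H.dual σ0 σ h0 h1
  clear h1 h2
  induction p with
  | refl => exact hv
  | tail _ e ih =>
    obtain ⟨w, hw⟩ := ex _ e.2.1
    rwa [good_eq H hr hr' e.1 e.2.1 e.2.2 ih hw]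

end Crest.Agent.N233.Rr.G

namespace Crest.Agent.N233.Rr

open Crest.Agent.N255.Ra Dv G

variable {S : Type} {Γ : SimpleGraph S} [DecidableEq S] (H : Hy Γ)
include H

/-- **step (2)** -/
theorem geo [Nonempty S] (β : W Γ ≃* W Γ) (h : ∀ a, ∃ u s, β (gen Γ a) = u * gen Γ s * u⁻¹)
    (h' : ∀ a, ∃ u s, β.symm (gen Γ a) = u * gen Γ s * u⁻¹) :
    ∃ (v : W Γ) (φ : Γ ≃g Γ), ∀ w, β w = v * aut φ w * v⁻¹ := by
  obtain ⟨v, hv⟩ := exists_aj_all H h h'
  choose f hf using hv
  let γ : W Γ ≃* W Γ := β.trans (MulAut.conj v⁻¹)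
  have e : ∀ a, γ (gen Γ a) = gen Γ (f a) := fun a => by simp [γ, hf, mul_assoc]
  have i : Function.Injective f := fun a b k => gen_injective (γ.injective (by rw [e, e, k]))
  have su : Function.Surjective f := fun s => by
    by_contra n
    let χ : W Γ →* ℤˣ := lift (fun a => if a = s then -1 else 1) (fun a => by split_ifs <;> simp)
      fun _ _ _ => Commute.all _ _
    have k : χ.comp γ.toMonoidHom = 1 := hom_ext fun a => by
      have : f a ≠ s := fun e => n ⟨a, e⟩
      simp [e, χ, this]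
    have := DFunLike.congr_fun k (γ.symm (gen Γ s))
    simp [χ] at this
  let φ : Γ ≃g Γ := ⟨Equiv.ofBijective f ⟨i, su⟩, fun {a b} => ⟨fun k => adj_of_comm
    (fun n => k.ne (congrArg f n)) (by
      have := (gen_comm k).map γ.symm
      simp only [Equiv.ofBijective_apply, ← e, MulEquiv.symm_apply_apply] at this
      exact this), fun k => adj_of_comm (i.ne k.ne) (by
      simp only [Equiv.ofBijective_apply, ← e]; exact (gen_comm k).map γ)⟩⟩
  refine ⟨v, φ, fun w => ?_⟩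
  have : γ w = aut φ w := DFunLike.congr_fun (hom_ext (φ := γ.toMonoidHom) (ψ := (aut φ).toMonoidHom)
    fun a => (e a).trans (aut_gen φ a).symm) w
  rw [← this]; simp [γ, mul_assoc]

end Crest.Agent.N233.Rr

end
end

-- ▼ part N233/Rr/Rig
section

/-!
# Row 233 (helper16): `Aut W = Inn W ⋊ Aut Γ`
-/

set_option autoImplicit false

namespace Crest.Agent.N233.Rr

open N255.Ra

variable {S : Type} [DecidableEq S] [Nonempty S] {Γ : SimpleGraph S}

/-- **rigidity** -/
theorem rig (H : Hy Γ) (β : W Γ ≃* W Γ) :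
    ∃ (v : W Γ) (φ : Γ ≃g Γ), ∀ w, β w = v * aut φ w * v⁻¹ :=
  geo H β (H.rf_map β) (H.rf_map β.symm)

/-- rigidity for `W ⋊ F` -/
theorem rig0 (H : Hy Γ) {F : Type} [Group F] {ρ : F →* MulAut (W Γ)}
    (hF : ∀ f : F, f * f = 1 → f = 1) (bh : W Γ ⋊[ρ] F ≃* W Γ ⋊[ρ] F) :
    ∃ (v : W Γ) (φ : Γ ≃g Γ), ∀ w,
      bh (SemidirectProduct.inl w) = SemidirectProduct.inl (v * aut φ w * v⁻¹) := by
  obtain ⟨β, hβ⟩ := res0 hF bh
  obtain ⟨v, φ, h⟩ := rig H β
  exact ⟨v, φ, fun w => by rw [hβ, h]⟩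

end Crest.Agent.N233.Rr
end

-- ▼ part N233/Rr/Cd
section

/-!
# Row 233 (helper16): the subgroup of an asymmetric binary code is rigid
-/

set_option autoImplicit false

noncomputable section

namespace Crest.Agent.N233.Rr

open N255.Ra Dv SemidirectProduct Relation
open scoped Classical

/-- the generator matrix of the code -/
def cl : Fin 14 → Fin 3 → ZMod 2 :=
  ![![1, 1, 0], ![1, 0, 1], ![0, 1, 1], ![1, 1, 1], ![1, 0, 0], ![1, 0, 0], ![0, 1, 0], ![0, 1, 0],
    ![0, 1, 0], ![0, 0, 1], ![0, 0, 1], ![0, 0, 1], ![0, 0, 1], ![0, 0, 1]]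

/-- the code words -/
def cw (l : Fin 3 → ZMod 2) (j : Fin 14) : ZMod 2 := l 0 * cl j 0 + l 1 * cl j 1 + l 2 * cl j 2

/-- their weights -/
def wt (l : Fin 3 → ZMod 2) : ℕ := (Finset.univ.filter fun j => cw l j ≠ 0).card

theorem wt_inj : ∀ l l', wt l = wt l' → l = l' := by decide +kernel

theorem wt_ge : ∀ l, wt l ≤ 4 → l = 0 := by decide +kernel

theorem cw_sep : ∀ i j : Fin 14, i < 4 → (∀ l, cw l j = cw l i) → j = i := by decide +kernel

theorem cw_ne : ∀ i : Fin 14, ∃ l, cw l i ≠ 0 := by decide +kernel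

section code
variable {K : Type} {a : Fin 14 → K}

variable (a) in
/-- the code on `K` -/
def wd (l : Fin 3 → ZMod 2) : K → ZMod 2 := Function.extend a (cw l) 0

theorem wd_out (l : Fin 3 → ZMod 2) {k : K} (h : ¬∃ j, a j = k) : wd a l k = 0 :=
  Function.extend_apply' _ _ _ h

variable (ha : Function.Injective a)
include ha

theorem wd_in (l : Fin 3 → ZMod 2) (j : Fin 14) : wd a l (a j) = cw l j := ha.extend_apply _ _ j

theorem wd_add (l l' : Fin 3 → ZMod 2) : wd a (l + l') = wd a l + wd a l' := funext fun k => by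
  by_cases h : ∃ j, a j = k
  · obtain ⟨j, rfl⟩ := h
    simp only [Pi.add_apply, wd_in ha, cw]
    ring
  · simp [wd_out _ h]

theorem wd_zero : wd a 0 = 0 := by simpa using wd_add ha 0 0

theorem wd_card (l : Fin 3 → ZMod 2) : {k | wd a l k ≠ 0}.ncard = wt l := by
  rw [wt, ← Set.ncard_coe_finset, ← Set.ncard_image_of_injective _ ha]
  congr 1
  ext k
  by_cases h : ∃ j, a j = k
  · obtain ⟨j, rfl⟩ := h
    simp [wd_in ha, ha.eq_iff]
  · simp only [Set.mem_ofPred_eq, wd_out _ h, ne_eq, not_true, false_iff]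
    exact fun ⟨j, _, e⟩ => h ⟨j, e⟩

/-- a permutation preserving the code fixes the four special coordinates -/
theorem wd_fix {e : K → K} (he : Function.Bijective e) (h : ∀ l, ∃ l', ∀ k, wd a l' (e k) = wd a l k)
    {i : Fin 14} (hi : i < 4) : e (a i) = a i := by
  have k : ∀ l k, wd a l (e k) = wd a l k := fun l => by
    obtain ⟨l', h⟩ := h l
    rwa [wt_inj l' l (by
      rw [← wd_card ha, ← wd_card ha, ← Set.ncard_preimage_of_injective_subset_range he.1
        (he.2.range_eq ▸ Set.subset_univ _)]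
      simp only [Set.preimage_setOf_eq, h])] at h
  obtain ⟨l, hl⟩ := cw_ne i
  obtain ⟨j, hj⟩ : ∃ j, a j = e (a i) := by_contra fun n => hl (by rw [← wd_in ha, ← k, wd_out _ n])
  rw [← hj, cw_sep i j hi fun l => by rw [← wd_in ha, hj, k, wd_in ha]]

end code

variable {S F : Type} [Group F] {Γ : SimpleGraph S} {ρ : F →* (Γ ≃g Γ)}

/-- the subgroup of the code -/
def cG (C : Col ρ) {a : Fin 14 → C.K} (ha : Function.Injective a) : Subgroup (G0 ρ) where
  carrier := {g | ∃ l, (C.χ0 g).toAdd = wd a l}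
  one_mem' := ⟨0, by simp [wd_zero ha]⟩
  mul_mem' := fun ⟨l, h⟩ ⟨l', h'⟩ => ⟨l + l', by rw [map_mul, toAdd_mul, h, h', wd_add ha]⟩
  inv_mem' := fun ⟨l, h⟩ => ⟨l, by rw [map_inv, toAdd_inv, h]; ext k; simp⟩

theorem le_cG (C : Col ρ) {a : Fin 14 → C.K} (ha : Function.Injective a) : C.G ≤ cG C ha :=
  fun g h => ⟨0, by rw [show C.χ0 g = 1 from h, wd_zero ha]; rfl⟩

theorem chi_sq (C : Col ρ) (g : G0 ρ) : g * g ∈ C.G := by
  change C.χ0 (g * g) = 1
  rw [map_mul]
  ext k
  simp [CharTwo.add_self_eq_zero]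

theorem chi_surj (C : Col ρ) (h : Function.Surjective C.κ) (x : C.K → ZMod 2) :
    ∃ w, (C.χ w).toAdd = x := by
  have := C.fin
  induction x using Pi.single_induction with
  | zero => exact ⟨1, by simp⟩
  | add f g hf hg =>
    obtain ⟨u, hu⟩ := hf
    obtain ⟨v, hv⟩ := hg
    exact ⟨u * v, by simp [hu, hv]⟩
  | single k m =>
    obtain ⟨s, rfl⟩ := h k
    rcases (by decide : ∀ m : ZMod 2, m = 0 ∨ m = 1) m with rfl | rfl
    exacts [⟨1, by simp⟩, ⟨gen Γ s, by simp [Col.χ]⟩]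

theorem chi_aut (C : Col ρ) (φ : Γ ≃g Γ) {e : C.K → C.K} (he : Function.Injective e)
    (h : ∀ s, e (C.κ s) = C.κ (φ s)) (w : W Γ) (k : C.K) :
    (C.χ (aut φ w)).toAdd (e k) = (C.χ w).toAdd k := by
  induction w using ind_right with
  | one => simp
  | mul w s ih =>
    simp only [map_mul, toAdd_mul, Pi.add_apply, ih, aut_gen]
    simp [Col.χ, Pi.single_apply, ← h, he.eq_iff]

variable [DecidableEq S]

theorem good_cG (H : Hy Γ) (C : Col ρ) {a : Fin 14 → C.K} (ha : Function.Injective a) :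
    Ma.Good (cG C ha) where
  normal := ⟨fun g ⟨l, h⟩ u => ⟨l, by
    rw [C.χ0.map_mul, C.χ0.map_mul, map_inv, mul_inv_cancel_comm, h]⟩⟩
  fi := Subgroup.finiteIndex_of_le (le_cG C ha)
  inr f := le_cG C ha (C.inr_mem f)
  sq g := le_cG C ha (chi_sq C g)
  tf g := fun ⟨l, h⟩ hg v A hA m => by
    refine C.tf g ?_ hg v A hA m
    have e : C.χ (v⁻¹ * g.left * v) = C.χ0 g := by
      rw [map_mul, map_mul, map_inv, inv_mul_cancel_comm]; rfl
    have : wt l ≤ 4 := by
      lift A to Finset S using hA.1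
      rw [← wd_card ha, ← h, ← e]
      refine le_trans (Set.ncard_le_ncard (t := C.κ '' A) (fun k hk => by_contra fun n =>
        hk (chi_WT C m fun s hs q => n ⟨s, hs, q⟩))) ((Set.ncard_image_le).trans ?_)
      simpa using H.le4 A hA.2
    rw [wt_ge l this, wd_zero ha] at h
    exact h

/-- an automorphism fixing a tetrahedron is trivial -/
theorem Hy.eq_of_fix (H : Hy Γ) (φ : Γ ≃g Γ) {σ : Finset S} (hσ : Γ.IsNClique 4 σ)
    (h : ∀ s ∈ σ, φ s = s) (s : S) : φ s = s := by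
  obtain ⟨τ, hτ, m⟩ := H.ext {s} (by simp)
  refine (?_ : ∀ s ∈ τ, φ s = s) s (m (by simp))
  clear m s
  induction H.dual σ τ hσ hτ with
  | refl => exact h
  | @tail x y _ k ih =>
    replace ih := ih k.1
    intro s hs
    by_contra n
    have sx : s ∉ x := fun q => n (ih s q)
    have h3 : Γ.IsNClique 3 (x ∩ y) := ⟨k.1.1.subset (by simp), k.2.2⟩
    have e : ∀ {z : Finset S} {c : S}, Γ.IsNClique 4 z → x ∩ y ⊆ z → c ∈ z → c ∉ x ∩ y →
        Γ.IsNClique 4 (insert c (x ∩ y)) := fun hz sub hc nc =>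
      ⟨hz.1.subset (Finset.coe_subset.2 (Finset.insert_subset hc sub)),
        by rw [Finset.card_insert_of_notMem nc, k.2.2]⟩
    obtain ⟨p, hp, np⟩ := Finset.exists_mem_notMem_of_card_lt_card (s := x ∩ y) (t := x)
      (by rw [k.2.2, k.1.2]; omega)
    obtain ⟨u, v, -, q⟩ := H.two _ h3
    have e1 := (q p).1 (e k.1 Finset.inter_subset_left hp np)
    have a2 := e k.2.1 Finset.inter_subset_right hs fun m => sx (Finset.mem_inter.1 m).1
    have e3 := (q (φ s)).1 (h3.insert fun c hc => by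
      rw [← ih c (Finset.mem_inter.1 hc).1, φ.map_adj_iff]
      exact k.2.1.1 hs (Finset.mem_inter.1 hc).2 fun m => sx (m ▸ (Finset.mem_inter.1 hc).1))
    have n1 : s ≠ p := fun m => sx (m ▸ hp)
    have n2 : φ s ≠ p := fun m => n1 (φ.injective (m.trans (ih p hp).symm))
    rcases e1 with rfl | rfl <;> rcases (q s).1 a2 with rfl | rfl <;> tauto

omit [DecidableEq S] in
variable (ρ) in
/-- the orbits -/
def orb : Setoid S := ⟨fun s t : S => ∃ f : F, ρ f s = t, fun s => ⟨1, by simp⟩,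
    fun ⟨f, e⟩ => ⟨f⁻¹, by rw [← e, map_inv]; exact (ρ f).symm_apply_apply _⟩,
    fun ⟨f, e⟩ ⟨g, e'⟩ => ⟨g * f, by rw [map_mul, ← e', ← e]; rfl⟩⟩

/-- the colouring by the orbits -/
def Fr.col (R : Fr ρ) : Col ρ where
  K := Quotient (orb ρ)
  fin := by
    obtain ⟨B, hB, h⟩ := R.fin
    refine Set.finite_univ_iff.1 ((hB.image (Quotient.mk _)).subset fun k _ => ?_)
    obtain ⟨s, rfl⟩ := Quotient.exists_rep k
    obtain ⟨f, hf⟩ := h s
    exact ⟨_, hf, (Quotient.sound (s := orb ρ) ⟨f, rfl⟩).symm⟩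
  κ := Quotient.mk _
  adj s t h e := by
    obtain ⟨f, rfl⟩ := Quotient.exact e
    exact R.adj f s h
  inv f s := (Quotient.sound (s := orb ρ) ⟨f, rfl⟩).symm

theorem Fr.col_eq (R : Fr ρ) {s t : S} : R.col.κ s = R.col.κ t ↔ ∃ f : F, ρ f s = t := Quotient.eq

/-- an automorphism that is geometric on `W` normalises `F` -/
theorem Fr.norm (R : Fr ρ) (b : G0 ρ ≃* G0 ρ) (φ : Γ ≃g Γ) (h : ∀ w, b (inl w) = inl (aut φ w))
    (f : F) : ∃ f', b (inr f) = inr f' ∧ ∀ s, φ (ρ f s) = ρ f' (φ s) := by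
  have key : ∀ s, gen Γ (φ (ρ f s)) =
      (b (inr f)).left * gen Γ (ρ (b (inr f)).right (φ s)) * (b (inr f)).left⁻¹ := fun s => by
    have e : (inl (gen Γ (ρ f s)) : G0 ρ) * inr f = inr f * inl (gen Γ s) := by
      ext <;> simp [autHom_apply]
    have := congrArg (fun g => (b g).left) e
    simp only [map_mul, h, mul_left, left_inl, right_inl, map_one, MulAut.one_apply, autHom_apply,
      aut_gen] at this
    rw [← this, mul_inv_cancel_right]
  have e := fun s => gen_conj (key s)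
  refine ⟨(b (inr f)).right, SemidirectProduct.ext (cenW R.b3 fun s t _ _ => ⟨0, ?_⟩) rfl, e⟩
  have c : ∀ s, Commute (b (inr f)).left (gen Γ s) := fun s => by
    obtain ⟨s, rfl⟩ := φ.surjective s
    obtain ⟨s, rfl⟩ := (ρ f).surjective s
    have := key s
    rw [← e] at this
    exact mul_inv_eq_iff_eq_mul.1 this.symm
  exact ((c s).mul_right (c t)).pow_right _

/-- **step (3)** -/
theorem Fr.inn (R : Fr ρ) {a : Fin 14 → S} (ha : Function.Injective (R.col.κ ∘ a))
    (h4 : ∀ i j : Fin 14, i < 4 → j < 4 → i ≠ j → Γ.Adj (a i) (a j)) (b : G0 ρ ≃* G0 ρ)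
    (hb : ∀ g ∈ cG R.col ha, b g ∈ cG R.col ha) : ∃ u, ∀ g, b g = u * g * u⁻¹ := by
  have : Nonempty S := ⟨a 0⟩
  have := R.col.fin
  obtain ⟨v, φ, h⟩ := rig0 R.hy R.inv b
  let b1 := b.trans (MulAut.conj (inl v : G0 ρ)⁻¹)
  have h1 : ∀ w, b1 (inl w) = inl (aut φ w) := fun w => by simp [b1, h, mul_assoc]
  let e : R.col.K → R.col.K := Quotient.lift (fun s => R.col.κ (φ s)) fun s t ⟨f, m⟩ => by
    obtain ⟨f', -, q⟩ := R.norm b1 φ h1 f
    exact R.col_eq.2 ⟨f', by rw [← q, m]⟩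
  have es : Function.Surjective e := fun k => by
    obtain ⟨s, rfl⟩ := Quotient.exists_rep k
    obtain ⟨s, rfl⟩ := φ.surjective s
    exact ⟨R.col.κ s, rfl⟩
  have eb := es.bijective_of_finite
  have fx : ∀ i : Fin 14, i < 4 → ∃ f, ρ f (φ (a i)) = a i := fun i hi =>
    R.col_eq.1 (wd_fix ha eb (fun l => by
      obtain ⟨w, hw⟩ := chi_surj R.col Quotient.mk_surjective (wd (R.col.κ ∘ a) l)
      obtain ⟨l', q⟩ := (good_cG R.hy R.col ha).normal.conj_mem _ (hb (inl w) ⟨l, hw⟩) (inl v)⁻¹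
      refine ⟨l', fun k => ?_⟩
      rw [← q, ← hw, ← chi_aut R.col φ eb.1 (fun _ => rfl) w k]
      exact congrArg (fun g => (R.col.χ0 g).toAdd (e k)) (h1 w)) hi)
  obtain ⟨f, hf⟩ := fx 0 (by decide)
  have id : ∀ s, ρ f (φ s) = s := R.hy.eq_of_fix (φ.trans (ρ f))
    (σ := (Finset.univ.filter fun i : Fin 14 => i < 4).image a) ⟨by
      rw [Finset.coe_image]
      rintro _ ⟨i, hi, rfl⟩ _ ⟨j, hj, rfl⟩ n
      exact h4 i j (by simpa using hi) (by simpa using hj) fun m => n (m ▸ rfl), by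
      rw [Finset.card_image_of_injective _ ha.of_comp]; decide⟩ fun s hs => by
    obtain ⟨i, hi, rfl⟩ := Finset.mem_image.1 hs
    replace hi : i < 4 := by simpa using hi
    by_cases m : i = 0
    · exact m ▸ hf
    obtain ⟨g, hg⟩ := fx i hi
    have j := h4 0 i (by decide) hi (Ne.symm m)
    have q : ρ (f * g⁻¹) (a i) = ρ f (φ (a i)) := by
      rw [← hg, map_mul, map_inv, hg]
      exact congrArg _ ((ρ g).symm_apply_eq.2 hg.symm)
    have := R.loc (f * g⁻¹) _ _ j (by
      rw [q, ← hf, (ρ f).map_adj_iff, φ.map_adj_iff]; exact j)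
    exact q.symm.trans (by rw [this, map_one]; rfl)
  let b2 := b1.trans (MulAut.conj (inr f : G0 ρ))
  have h2 : ∀ w, b2 (inl w) = inl w := fun w => by
    have : aut (ρ f) (aut φ w) = w :=
      DFunLike.congr_fun (hom_ext (φ := (aut (ρ f)).toMonoidHom.comp (aut φ).toMonoidHom)
        (ψ := MonoidHom.id _) fun s => by simp [id]) w
    simp only [b2, MulEquiv.trans_apply, h1, MulAut.conj_apply]
    rw [← map_inv, ← inl_aut, autHom_apply, this]
  have h3 : ∀ g, b2 (inr g) = inr g := fun g => by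
    obtain ⟨g', m, q⟩ := R.norm b2 (RelIso.refl _) (fun w => by
      rw [h2]; exact congrArg _ (DFunLike.congr_fun (hom_ext (φ := MonoidHom.id _)
        (ψ := (aut (RelIso.refl Γ.Adj)).toMonoidHom) fun s => by simp) w)) g
    rw [m, ← mul_inv_eq_one.1 (R.free (g * g'⁻¹) (ρ g' (a 0)) (by
      rw [map_mul, map_inv]
      exact (congrArg _ ((ρ g').symm_apply_apply _)).trans (q _)))]
  refine ⟨inl v * (inr f)⁻¹, fun g => ?_⟩
  have : b2 g = g := by rw [← inl_left_mul_inr_right g, map_mul, h2, h3]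
  simp only [b2, b1, MulEquiv.trans_apply, MulAut.conj_apply] at this
  conv_rhs => rw [← this]
  group

/-- **the code subgroup** -/
theorem code (R : Fr ρ) [Group.FG (G0 ρ)] (fin : Ma.FinA ρ) : Ma.CodeO ρ := by
  obtain ⟨a, h, h4⟩ := R.big
  have ha : Function.Injective (R.col.κ ∘ a) := fun i j e => (R.col_eq.1 e).elim (h i j)
  have g := good_cG R.hy R.col ha
  have := g.fi
  refine ⟨cG R.col ha, g, ⟨R.cen _, fun b hb => (R.inn ha h4 b fun x => (hb x).2).imp
    fun _ e x _ => e x⟩, fin_sub _ (fun u _ => R.cen _ u) (fin _ inferInstance fun x hx _ => ?_)⟩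
  exact ni_col R.col (sq2'_le_ker _ R.col.χ0 hx)

end Crest.Agent.N233.Rr

end
end

-- ▼ part N233/Cd/Gen
section

/-!
# Row 233 (helper51): closed stars of the subdivision inject into the quotient; far corners
-/

set_option autoImplicit false

namespace Crest.Agent.N233.Cd

open N255.Pt N233.PS N233.Hi Set

variable {ι I Tor K F : Type} [Group F] (D : Dt ι I Tor K) {X : Set (St ι I Tor) → Prop}
  (hX : ∀ A, X A ↔ D.Gt.IsClique A) {j : F →* FreeGroup ι} (hj : Function.Injective j)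
  {ρ : F →* (ps X ≃g ps X)} (hρ : ∀ f a, car (ρ f a) = (j f • ·) '' car a)
include hX

theorem eq_of_cl (c : PV X) {v w : St ι I Tor} (hv : v ∈ car c) (hw : w ∈ car c) (e : D.cl v = D.cl w) :
    v = w := by_contra fun n => D.cl_ne ((hX _).1 (car_face c) hv hw n) e

theorem nest {c a : PV X} (h : a = c ∨ (ps X).Adj c a) : car a ⊆ car c ∨ car c ⊆ car a := by
  rcases h with rfl | h
  exacts [.inl subset_rfl, (car_nest (cxD D hX) h).symm]

theorem mem_of_single {c a : PV X} {v : St ι I Tor} (h : a = c ∨ (ps X).Adj c a) (e : car a = {v}) :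
    v ∈ car c := by
  rcases nest D hX h with k | k
  · exact k (e ▸ rfl)
  · obtain ⟨w, hw⟩ := car_nonempty c
    rwa [← show w = v from (e ▸ k hw : w ∈ ({v} : Set _))]

include hj hρ

/-- closed stars inject into the quotient -/
theorem star_inj {c a : PV X} {f : F} (h : a = c ∨ (ps X).Adj c a)
    (h' : ρ f a = c ∨ (ps X).Adj c (ρ f a)) : f = 1 := by
  have key : ∀ (b : PV X) v, v ∈ car b → j f • v ∈ car b → f = 1 := fun b v h1 h2 =>
    hj ((L.free _ _ (eq_of_cl D hX b h2 h1 rfl)).trans (map_one j).symm)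
  obtain ⟨v, hv⟩ := car_nonempty a
  obtain ⟨w, hw⟩ := car_nonempty c
  have m : j f • v ∈ car (ρ f a) := hρ f a ▸ ⟨v, hv, rfl⟩
  rcases nest D hX h with k | k <;> rcases nest D hX h' with k' | k'
  · exact key c v (k hv) (k' m)
  · obtain ⟨u, hu, e⟩ := hρ f a ▸ k' (k hv)
    exact key a u hu (by rwa [show j f • u = v from e])
  · exact key a v hv (k (k' m))
  · obtain ⟨u, hu, e⟩ := hρ f a ▸ k' hw
    exact key a u hu (by rw [show j f • u = w from e]; exact k hw)

theorem free {a : PV X} {f : F} (h : ρ f a = a) : f = 1 := star_inj D hX hj hρ (.inl rfl) (.inl h)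

omit hj in
theorem cof [Finite ι] [Finite I] [Finite Tor] [j.range.FiniteIndex] :
    ∃ B : Set (PV X), B.Finite ∧ ∀ s, ∃ f, ρ f s ∈ B := by
  obtain ⟨B, hB, h⟩ := actN_cof j
  refine ⟨_, hB.biUnion fun t _ => ts_finite (X := X) t, fun s => ?_⟩
  obtain ⟨v, hv⟩ := D.helly ((hX _).1 (car_face s))
  obtain ⟨f, hf⟩ := h v
  exact ⟨f, mem_biUnion hf (ts_smul j ρ hρ f s v fun u hu => hv hu)⟩

omit hj hρ in
theorem face1 (v : St ι I Tor) : X {v} := (hX _).2 (pairwise_singleton _ _)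

omit hj hρ in
/-- the corner over an interior vertex of the base copy -/
noncomputable def cn (a : I) : PV X := corner ⟨1, .inl a⟩ (face1 D hX _)

omit hj in
/-- corners of one colour are far apart in the quotient -/
theorem far {c : PV X} {a b : I} {f : F} (e : D.col (.inl a) = D.col (.inl b))
    (h : cn D hX a = c ∨ (ps X).Adj c (cn D hX a))
    (h' : ρ f (cn D hX b) = c ∨ (ps X).Adj c (ρ f (cn D hX b))) : a = b := by
  have h1 := mem_of_single D hX h (car_corner _ _)
  have h2 := mem_of_single D hX h' (by rw [hρ, cn, car_corner, image_singleton])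
  simpa using congrArg L.k (eq_of_cl D hX c h1 h2 e)

omit hj in
/-- the star of a corner contains no corner of another colour, up to the group -/
theorem ne_cn {t : PV X} {a b : I} {f : F} (e : D.col (.inl a) ≠ D.col (.inl b))
    (h : cn D hX a = t ∨ (ps X).Adj t (cn D hX a)) : ρ f t ≠ cn D hX b := fun k => by
  have h1 := mem_of_single D hX h (car_corner _ _)
  have h2 : j f • (⟨1, .inl a⟩ : St ι I Tor) ∈ car (ρ f t) := hρ f t ▸ ⟨_, h1, rfl⟩
  rw [k, cn, car_corner] at h2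
  exact e (congrArg D.cl h2)

end Crest.Agent.N233.Cd
end

-- ▼ part N233/Cd/Frs

/-!
# Row 233 (helper51): the action on the subdivision satisfies `Rr.Fr`
-/

set_option autoImplicit false

namespace Crest.Agent.N233.Cd

open N255.Pt N233.PS N233.Hi Set

theorem fr_of {ι I Tor K F : Type} [Group F] [Finite ι] [Finite I] [Finite Tor] (D : Dt ι I Tor K)
    {X : Set (St ι I Tor) → Prop} [DecidableEq (PV X)] (hX : ∀ A, X A ↔ D.Gt.IsClique A)
    {j : F →* FreeGroup ι} (hj : Function.Injective j) [j.range.FiniteIndex]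
    {ρ : F →* (ps X ≃g ps X)} (hρ : ∀ f a, car (ρ f a) = (j f • ·) '' car a) (H : Rr.Hy (ps X))
    (e : Fin 10 → I) (he : Function.Injective e) (o : I)
    (h1 : ∀ i i', D.col (.inl (e i)) = D.col (.inl (e i')))
    (h2 : ∀ i, D.col (.inl o) ≠ D.col (.inl (e i))) : Rr.Fr ρ := by
  have fa : ∀ {c i i'} {f : F}, (cn D hX (e i) = c ∨ (ps X).Adj c (cn D hX (e i))) →
      (ρ f (cn D hX (e i')) = c ∨ (ps X).Adj c (ρ f (cn D hX (e i')))) → i = i' :=
    fun h h' => he (far D hX hρ (h1 _ _) h h')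
  have one : ∀ a, ρ 1 a = a := fun a => by rw [map_one]; rfl
  refine ⟨H, fun a σ hσ => ?_, fun f h => hj ?_, fun f s => free D hX hj hρ, fun f a h => ?_,
    fun f a b h h' => star_inj D hX hj hρ (.inr h) (.inr h'), cof D hX hρ, ?_⟩
  · by_contra n
    have k : ∀ i, (cn D hX (e i) = a ∨ (ps X).Adj a (cn D hX (e i))) ∨ cn D hX (e i) ∈ σ := fun i => by
      by_contra m
      simp only [not_or] at m
      exact n ⟨_, m.1.1, m.1.2, m.2⟩
    have k1 : ∀ i i', cn D hX (e i) ∈ σ → cn D hX (e i') ∈ σ → i = i' := fun i i' p q =>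
      fa (f := 1) (.inl rfl) (by
        rw [one]
        exact (eq_or_ne _ _).imp_right fun m => hσ p q m.symm)
    have k2 : ∀ i i', (cn D hX (e i) = a ∨ (ps X).Adj a (cn D hX (e i))) →
        (cn D hX (e i') = a ∨ (ps X).Adj a (cn D hX (e i'))) → i = i' := fun i i' p q =>
      fa (f := 1) p (by rwa [one])
    rcases k 0 with p | p <;> rcases k 1 with q | q <;> rcases k 2 with r | r
    exacts [absurd (k2 _ _ p q) (by decide), absurd (k2 _ _ p q) (by decide),
      absurd (k2 _ _ p r) (by decide), absurd (k1 _ _ q r) (by decide), absurd (k2 _ _ q r) (by decide),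
      absurd (k1 _ _ p r) (by decide), absurd (k1 _ _ p q) (by decide), absurd (k1 _ _ p q) (by decide)]
  · rw [map_one, ← pow_eq_one_iff_left two_ne_zero, sq, ← map_mul, h, map_one]
  · rw [star_inj D hX hj hρ (.inl rfl) (.inr h), one] at h
    exact h.ne rfl
  · obtain ⟨σ, hσ, m⟩ := H.ext {cn D hX o} (by simp)
    have mo : cn D hX o ∈ σ := m (Finset.mem_singleton_self _)
    let t : Fin 4 → PV X := fun i => (σ.equivFinOfCardEq hσ.2).symm i
    have ti : Function.Injective t := Subtype.val_injective.comp (Equiv.injective _)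
    have tm : ∀ i, t i ∈ σ := fun i => Subtype.property _
    have st : ∀ {a b}, a ∈ σ → b ∈ σ → a = b ∨ (ps X).Adj b a := fun p q =>
      (eq_or_ne _ _).imp_right fun m => hσ.1 q p m.symm
    have ne : ∀ (f : F) i i', ρ f (t i) ≠ cn D hX (e i') := fun f i i' =>
      ne_cn D hX hρ (h2 i') (st mo (tm i))
    refine ⟨fun i => Fin.addCases (m := 4) (n := 10) t (fun i => cn D hX (e i)) i, fun i i' f => ?_,
      fun i i' p q n => ?_⟩
    · induction i using Fin.addCases (m := 4) (n := 10) with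
      | left i =>
        induction i' using Fin.addCases (m := 4) (n := 10) with
        | left i' =>
          simp only [Fin.addCases_left]
          intro k
          rw [star_inj D hX hj hρ (st (tm i) (tm i')) (.inl k), one] at k
          rw [ti k]
        | right i' =>
          simp only [Fin.addCases_left, Fin.addCases_right]
          exact fun k => absurd k (ne f i i')
      | right i =>
        induction i' using Fin.addCases (m := 4) (n := 10) with
        | left i' =>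
          simp only [Fin.addCases_left, Fin.addCases_right]
          refine fun k => absurd ?_ (ne f⁻¹ i' i)
          rw [← k, map_inv]
          exact (ρ f).symm_apply_apply _
        | right i' =>
          simp only [Fin.addCases_right]
          exact fun k => by rw [fa (.inl rfl) (.inl k)]
    · obtain ⟨i, rfl⟩ : ∃ k : Fin 4, i = Fin.castAdd 10 k := ⟨⟨i, p⟩, rfl⟩
      obtain ⟨i', rfl⟩ : ∃ k : Fin 4, i' = Fin.castAdd 10 k := ⟨⟨i', q⟩, rfl⟩
      simp only [Fin.addCases_left]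
      exact hσ.1 (tm i) (tm i') fun k => n (by rw [ti k])

/-- the instance for the data of row 255 -/
theorem fr_D {F : Type} [Group F] {X : Set (St (Fin 3) (Fin 112) (Fin 16)) → Prop} [DecidableEq (PV X)]
    (hX : ∀ A, X A ↔ N255.Da.D.Gt.IsClique A) {j : F →* FreeGroup (Fin 3)}
    (hj : Function.Injective j) [j.range.FiniteIndex] {ρ : F →* (ps X ≃g ps X)}
    (hρ : ∀ f a, car (ρ f a) = (j f • ·) '' car a) (H : Rr.Hy (ps X)) : Rr.Fr ρ :=
  fr_of N255.Da.D hX hj hρ H ![1, 3, 6, 8, 13, 15, 17, 19, 22, 24] (by decide) 0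
    (by decide +kernel) (by decide +kernel)

/-- restriction to a subgroup of finite index -/
theorem fr_res {X : Set (St (Fin 3) (Fin 112) (Fin 16)) → Prop} [DecidableEq (PV X)]
    (hX : ∀ A, X A ↔ N255.Da.D.Gt.IsClique A) (ρ : FreeGroup (Fin 3) →* (ps X ≃g ps X))
    (hρ : ∀ f a, car (ρ f a) = (f • ·) '' car a) (E : Subgroup (FreeGroup (Fin 3))) [E.FiniteIndex]
    (H : Rr.Hy (ps X)) : Rr.Fr (ρ.comp E.subtype) :=
  have : E.subtype.range.FiniteIndex := by rwa [E.range_subtype]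
  fr_D hX E.subtype_injective (fun f => hρ f) H

end Crest.Agent.N233.Cd
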